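import Vale.Agent.P231.Bd3.B6
import Vale.Agent.P231.H512.Main

/-! The metric Blaschke conjecture for the model `ℂPⁿ`: such a manifold is isometric to the complex
projective space with its Fubini-Study distance. -/

set_option maxSynthPendingDepth 3

open Bundle Manifold Set
open scoped ContDiff Manifold ENNReal

namespace Vale.Agent.Results.P231.ComplexBlaschkeFS

open Vale.Agent.P231.Blaschke

/-- Let `M` be a compact connected Riemannian manifold of dimension at least three. Its exponential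
map exists and is unique. If `inj M ≥ diam M` (so `M` is a Blaschke manifold) and the largest
multiplicity of a cut point is one (the model is a complex projective space), then `M` is isometric
to `ℂPⁿ`, `2 n = dim M`, with the Fubini-Study distance
`d([z], [w]) = (2 diam M / π) arccos |⟨z, w⟩|` (`z`, `w` unit vectors of `ℂⁿ⁺¹`): the map
`x ↦ [Z x]` preserves distances and is onto `ℂPⁿ` (unit vectors `z`, `w` span the same line if and
only if `|⟨z, w⟩| = 1`). -/
theorem result {E : Type*} [NormedAddCommGroup E] [NormedSpace ℝ E] [FiniteDimensional ℝ E]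
    {M : Type*} [MetricSpace M] [ChartedSpace E M] [IsManifold 𝓘(ℝ, E) ∞ M]
    [RiemannianBundle (fun x : M => TangentSpace 𝓘(ℝ, E) x)]
    [IsContMDiffRiemannianBundle 𝓘(ℝ, E) ∞ E (fun x : M => TangentSpace 𝓘(ℝ, E) x)]
    [IsRiemannianManifold 𝓘(ℝ, E) M] [CompactSpace M] [ConnectedSpace M]
    (hdim : 3 ≤ Module.finrank ℝ E) :
    ∃ e : ∀ x : M, TangentSpace 𝓘(ℝ, E) x → M, IsExpMap e ∧
      (∀ e' : ∀ x : M, TangentSpace 𝓘(ℝ, E) x → M, IsExpMap e' → e' = e) ∧
      (InjGeDiam e → IsLeast {l : ℕ | MultLE e l} 1 →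
        ∃ n : ℕ, 2 * n = Module.finrank ℝ E ∧ ∃ Z : M → Fin (n + 1) → ℂ,
          (∀ x, ∑ i, ‖Z x i‖ ^ 2 = 1) ∧
          (∀ x y, dist x y = 2 * Metric.diam (univ : Set M) / Real.pi *
            Real.arccos ‖∑ i, starRingEnd ℂ (Z x i) * Z y i‖) ∧
          ∀ z : Fin (n + 1) → ℂ, ∑ i, ‖z i‖ ^ 2 = 1 →
            ∃ x, ‖∑ i, starRingEnd ℂ (Z x i) * z i‖ = 1) := by
  obtain ⟨e, he, hu, -⟩ := Vale.Agent.P234.main_unconditional (E := E) (M := M)
  refine ⟨e, (Vale.Agent.P231.isExpMap_iff e).2 he,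
    fun e' he' => hu e' ((Vale.Agent.P231.isExpMap_iff e').1 he'), fun hinj hl => ?_⟩
  exact Vale.Agent.P231.H512.main_fs' he hinj hdim hl

end Vale.Agent.Results.P231.ComplexBlaschkeFS
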